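import Vale.Agent.P273.MathlibUsed

/-!
Decorated graphs, the trivial relations and Pixton's relations, in dual form.
Everything here is a definition.
-/

noncomputable section

namespace Vale.Agent.P273.Q

open Sum
open scoped Classical Nat

/-- A decorated graph with leg set `L` is given by vertices `V`, edges `E`, the genus and the kappa
decoration `a v` of each vertex, and the vertex and psi exponent `f y` of each half-edge `y` (an
edge with a side, or a leg). Here are the linear functionals on the combinations of such graphs. -/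
abbrev Fn (L : Type) : Type 1 :=
  ∀ V E : Type, (V → ℕ × Multiset ℕ) → ((E × Bool) ⊕ L → V × ℕ) → ℚ

variable {V E L : Type}

/-- The valence of `v`. -/
def nv (f : (E × Bool) ⊕ L → V × ℕ) (v : V) : ℕ := Nat.card {y // (f y).1 = v}

/-- The graph is finite, connected, of genus `g` and degree `d`, and all vertices are stable. -/
def Stab (a : V → ℕ × Multiset ℕ) (f : (E × Bool) ⊕ L → V × ℕ) (g d : ℕ) : Prop :=
  Finite V ∧ Finite E ∧ Nonempty V ∧
  (∀ s : Set V, (∀ e, (f (inl (e, true))).1 ∈ s ↔ (f (inl (e, false))).1 ∈ s) →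
    s = ∅ ∨ s = Set.univ) ∧
  ∑ᶠ v, (a v).1 + Nat.card E + 1 = g + Nat.card V ∧ (∀ v, 2 < 2 * (a v).1 + nv f v) ∧
  Nat.card E + ∑ᶠ v, (a v).2.sum + ∑ᶠ y, (f y).2 = d

/-- Moreover the decorations have degree at most `3g(v)-3+n(v)` at each `v`. -/
def Valid (a : V → ℕ × Multiset ℕ) (f : (E × Bool) ⊕ L → V × ℕ) (g d : ℕ) : Prop :=
  Stab a f g d ∧ ∀ v,
    (a v).2.sum + ∑ᶠ (y) (_ : (f y).1 = v), (f y).2 + 3 ≤ 3 * (a v).1 + nv f v

/-- Add a new leg `none` at `v` with exponent `c`. -/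
def ad (f : (E × Bool) ⊕ L → V × ℕ) (v : V) (c : ℕ) : (E × Bool) ⊕ Option L → V × ℕ :=
  Sum.elim (fun y => f (inl y)) (Option.elim' (v, c) fun x => f (inr x))

/-- Glue a new vertex of valence one to the leg `none`. -/
def tail (f : (E × Bool) ⊕ Option L → V × ℕ) : (Option E × Bool) ⊕ L → Option V × ℕ :=
  let u := fun y => (f y).map some id
  Sum.elim (fun y => y.1.elim (cond y.2 (none, 0) (u (inr none))) fun e => u (inl (e, y.2)))
    fun x => u (inr (some x))

/-- Move the half-edge `z` to a new vertex that carries a new leg `none`, and join the new vertex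
to the old place of `z`, lowering the exponent there by one. -/
def bub (f : (E × Bool) ⊕ L → V × ℕ) (z : (E × Bool) ⊕ L) :
    (Option E × Bool) ⊕ Option L → Option V × ℕ :=
  let u := Function.update (fun y => (f y).map some id) z (none, 0)
  Sum.elim (fun y => y.1.elim (cond y.2 (none, 0) ((f z).map some (· - 1))) fun e =>
    u (inl (e, y.2))) (Option.elim' (none, 0) fun x => u (inr x))

/-- The dual of the forgetful pullback. -/
def pull (g d : ℕ) (s : Fn (Option L)) : Fn L := fun V E a f =>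
  ∑ᶠ (_ : Stab a f g d), (∑ᶠ v, (s V E a (ad f v 0) -
    ((a v).2.map fun k =>
      s V E (Function.update a v ((a v).1, (a v).2.erase k)) (ad f v k)).sum) -
    ∑ᶠ (z) (_ : (f z).2 ≠ 0), s (Option V) (Option E) (Option.elim' (0, 0) a) (bub f z))

/-- A set with `n` elements. -/
def Lg (n : ℕ) : Type := n.rec Empty fun _ => Option

/-- The coefficient of `ψ^m` in `ζ^a B_a(ζψ)`, for `a = 0, 1`. -/
def B (a : ℕ) (ζ : ℚ) (m : ℕ) : ℚ :=
  (ζ * (1 + 6 * m) / (1 - 6 * m)) ^ a * (-ζ) ^ m * (6 * m) ! / ((2 * m) ! * (3 * m) !)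

/-- The coefficient of `x^p y^q` in the edge factor
`(ζ + ξ - B_0(ζx) ξB_1(ξy) - ζB_1(ζx) B_0(ξy)) / (x + y)`, where `z = (ζ, p)` and `w = (ξ, q)`. -/
def edgeF (z w : ℚ × ℕ) : ℚ :=
  ∑ j ∈ Finset.range (w.2 + 1), (-1) ^ (j + 1) *
    (B 0 z.1 (z.2 + 1 + j) * B 1 w.1 (w.2 - j) + B 1 z.1 (z.2 + 1 + j) * B 0 w.1 (w.2 - j))

/-- The coefficient of `κ[μ]` in the vertex factor `κ(T - T B_0(ζT))`. -/
def kapF (μ : Multiset ℕ) (ζ : ℚ) : ℚ :=
  (μ.map fun c => 0 ^ c - B 0 ζ c).prod / ∏ c ∈ μ.toFinset, ((μ.count c) ! : ℚ)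

/-- The coefficient of the decorated graph in `R^d_{g,A}`, times the order of its automorphism
group. -/
def wt (a : V → ℕ × Multiset ℕ) (f : (E × Bool) ⊕ L → V × ℕ) (g d : ℕ) (A : L → ℕ) : ℚ :=
  ∑ᶠ (_ : Stab a f g d) (ζ : V → Bool),
    let s := fun v => cond (ζ v) (1 : ℚ) (-1)
    let t := fun y => (f y).map s id
    (1 / 2) ^ (Nat.card E + 1) * (∏ᶠ v, s v ^ ((a v).1 + 1) * kapF (a v).2 (s v)) *
      (∏ᶠ e, edgeF (t (inl (e, true))) (t (inl (e, false)))) *
      ∏ᶠ x, B (A x) (t (inr x)).1 (t (inr x)).2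

/-- `s` is a functional in degree `d` on the strata algebra of genus `g`. -/
def Tr (g d : ℕ) (s : Fn L) : Prop :=
  (∀ V E a f, ¬ Valid a f g d → s V E a f = 0) ∧
  (∀ V E V' E' a f f' (p : V → V') (q : E × Bool → E' × Bool), p.Bijective → q.Bijective →
    (∀ e, (q (e, true)).1 = (q (e, false)).1) →
    (∀ y, f' (y.map q id) = (f y).map p id) → s V E (a ∘ p) f = s V' E' a f') ∧
  ∀ V E a f v, s V E (Function.update a v ((a v).1, 0 ::ₘ (a v).2)) f =
    (2 * ((a v).1 : ℚ) - 2 + nv f v + (a v).2.card) * s V E a f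

/-- `s` satisfies moreover all of Pixton's relations. -/
def Pix (g d : ℕ) {N : Type} (s : Fn N) : Prop :=
  Tr g d s ∧ ∀ (R T L : Type) (r : R → ℕ × Multiset ℕ) (u : (T × Bool) ⊕ N → L ⊕ R × ℕ)
    (b A : L → ℕ) (γ e : ℕ), Finite R → Finite T → Finite L →
    (∀ y z x, u y = inl x → u z = inl x → y = z) → (∀ x, A x ≤ 1) → γ + ∑ᶠ x, A x < 3 * e →
    ∑ᶠ (k : ℕ) (m : ℕ) (a : Fin k → ℕ × Multiset ℕ) (f : (Fin m × Bool) ⊕ L → Fin k × ℕ),
      (let w := fun y => (u y).elim (fun x => (f (inr x)).map inl (· + b x)) (Prod.map inr id)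
      wt a f γ e A / (k ! * m ! * 2 ^ m) * s (Fin k ⊕ R) (Fin m ⊕ T) (Sum.elim (fun v =>
        ((a v).1, (a v).2 + ∑ᶠ (x) (_ : inl x ∉ Set.range u ∧ (f (inr x)).1 = v),
          {(f (inr x)).2 + b x})) r) (Sum.elim (fun y => y.1.elim
            (fun i => (f (inl (i, y.2))).map inl id) fun t => w (inl (t, y.2))) fun i => w (inr i)))
    = 0

end Vale.Agent.P273.Q
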